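import Vale.Agent.P284.H409.K.Spec
import Vale.Agent.P284.H409.RkF
import Vale.Agent.P284.H409.T.Spec
import Vale.Agent.P284.H639.V15
import Vale.Agent.P284.H894.V.Defs2

/-!
# P284, theorem K (helper409): consequences

The finite residual; linear representations of subgroups of finite index.
-/

open scoped Manifold ContDiff Topology Pointwise
open Filter Set Metric Function

noncomputable section

namespace Vale.Agent.P284.H409.K

open Vale.Agent.P272.K Vale.Agent.P284.H248 Vale.Agent.P284.H894 Vale.Agent.P284.H894.G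
  Vale.Agent.P284.H894.V Vale.Agent.P284.H894.W Vale.Agent.P284.H913.V Vale.Agent.P284.H409.A
  Vale.Agent.P284.H409.T Vale.Agent.P284.H119.Kaz Vale.Agent.P284.H10.T Vale.Agent.P284.H977

/-- The finite residual of a group. -/
def FR (A : Type*) [Group A] : Subgroup A := ⨅ H : FiniteIndexNormalSubgroup A, H.toSubgroup

section
variable {A : Type*} [Group A]

theorem mem_FR {a : A} : a ∈ FR A ↔ ∀ H : Subgroup A, H.FiniteIndex → a ∈ H := by
  unfold FR
  rw [Subgroup.mem_iInf]
  constructor
  · intro h H hH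
    exact H.normalCore_le (h (.ofSubgroup H.normalCore))
  · intro h H
    exact h H.toSubgroup inferInstance

instance FR_normal : (FR A).Normal := by
  constructor
  intro g hg h
  unfold FR at hg ⊢
  rw [Subgroup.mem_iInf] at hg ⊢
  exact fun H => H.isNormal'.conj_mem _ (hg H) _

theorem fi_map {B : Type*} [Group B] (f : A →* B) (hf : Surjective f) (H : Subgroup A)
    (hH : H.FiniteIndex) : (H.map f).FiniteIndex := by
  rw [Subgroup.finiteIndex_iff] at hH ⊢
  intro h0
  have := Subgroup.index_map_dvd H hf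
  rw [h0, zero_dvd_iff] at this
  exact hH this

instance FR_rf : Group.ResiduallyFinite (A ⧸ FR A) := by
  rw [Group.residuallyFinite_iff_forall_finiteIndex]
  intro g hg
  obtain ⟨a, rfl⟩ := QuotientGroup.mk'_surjective (FR A) g
  rw [QuotientGroup.mk'_apply, QuotientGroup.eq_one_iff, mem_FR]
  intro H hH
  have := fi_map (QuotientGroup.mk' (FR A)) (QuotientGroup.mk'_surjective _) H hH
  obtain ⟨b, hb, hab⟩ := hg (H.map (QuotientGroup.mk' (FR A)))
  have h1 : b⁻¹ * a ∈ FR A := QuotientGroup.eq.1 hab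
  have h2 := H.mul_mem hb (mem_FR.1 h1 H hH)
  simpa using h2

/-- The image of a subgroup of finite index under a homomorphism to a residually finite group is virtually
solvable if the group modulo the finite residual is virtually abelian. -/
theorem vsol_of (G : Subgroup A) (hG : G.FiniteIndex) {B : Type*} [Group B] (ρ : G →* B)
    (hρ : Surjective ρ)
    (hB : ∀ b : B, b ≠ 1 → ∃ N : Subgroup B, N.Normal ∧ N.FiniteIndex ∧ b ∉ N)
    (hQ : VirtuallyAbelian (A ⧸ FR A)) : VSol B := by
  have h1 : ∀ g : G, (g : A) ∈ FR A → ρ g = 1 := by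
    intro g hg
    by_contra hne
    obtain ⟨N, -, hN, hn⟩ := hB _ hne
    have hfi : (N.comap ρ).FiniteIndex := by
      rw [Subgroup.finiteIndex_iff, Subgroup.index_comap_of_surjective N hρ]
      exact hN.index_ne_zero
    have hfi2 : ((N.comap ρ).map G.subtype).FiniteIndex := by
      rw [Subgroup.finiteIndex_iff, Subgroup.index_map_subtype]
      exact mul_ne_zero hfi.index_ne_zero hG.index_ne_zero
    obtain ⟨g', hg', he⟩ := mem_FR.1 hg _ hfi2
    have h2 : g' = g := Subtype.ext he
    subst h2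
    exact hn hg'
  obtain ⟨H, hH, hab⟩ := hQ
  have hfi : (H.comap (QuotientGroup.mk' (FR A))).FiniteIndex := by
    rw [Subgroup.finiteIndex_iff,
      Subgroup.index_comap_of_surjective H (QuotientGroup.mk'_surjective _)]
    exact hH.index_ne_zero
  have hfi2 : ((H.comap (QuotientGroup.mk' (FR A))).subgroupOf G).FiniteIndex := inferInstance
  refine ⟨((H.comap (QuotientGroup.mk' (FR A))).subgroupOf G).map ρ, fi_map ρ hρ _ hfi2, ?_⟩
  refine Group.isSolvable_of_comm ?_
  rintro ⟨_, a, ha, rfl⟩ ⟨_, b, hb, rfl⟩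
  apply Subtype.ext
  show ρ a * ρ b = ρ b * ρ a
  have h3 := hab _ ha _ hb
  have h4 : (((b * a)⁻¹ * (a * b) : G) : A) ∈ FR A := by
    rw [← QuotientGroup.eq_one_iff]
    have h5 : (QuotientGroup.mk' (FR A)) ((a : A)) * (QuotientGroup.mk' (FR A)) (b : A) =
      (QuotientGroup.mk' (FR A)) (b : A) * (QuotientGroup.mk' (FR A)) (a : A) := h3
    have h6 : (QuotientGroup.mk' (FR A)) (((b * a)⁻¹ * (a * b) : G) : A) = 1 := by
      push_cast
      rw [map_mul, map_inv, map_mul, map_mul, h5]
      group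
    exact h6
  have h5 := h1 _ h4
  rw [map_mul, map_inv, map_mul, map_mul, inv_mul_eq_one] at h5
  exact h5.symm

end

/-- Malcev's theorem over `ℝ` -/
def MalStmt : Prop :=
  ∀ (G : Type) [Group G] [Group.FG G] (d : ℕ) (R : G →* Matrix.GeneralLinearGroup (Fin d) ℝ)
    (q : R.range), q ≠ 1 → ∃ N : Subgroup R.range, N.Normal ∧ N.FiniteIndex ∧ q ∉ N

theorem not_nsrep (hM : MalStmt) {A : Type} [Group A] (hfg : Group.FG A)
    (hQ : VirtuallyAbelian (A ⧸ FR A)) (G : Subgroup A) (hG : G.FiniteIndex) : ¬ NSRep G := by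
  rintro ⟨d, R, hR⟩
  have := hG
  have : Group.FG G := inferInstance
  exact hR (vsol_of G hG R.rangeRestrict R.rangeRestrict_surjective (hM G d R) hQ)

section
variable {n : ℕ} {X : Type} [TopologicalSpace X] [T2Space X] [CompactSpace X] [ConnectedSpace X]
  [ChartedSpace (Cm n) X] [IsManifold 𝓘(ℂ, Cm n) ω X]

theorem pi_fg (w : Chart n X → Cm n → Matrix (Fin n) (Fin n) ℂ) (hw : IsKahler w) (x : X) :
    Group.FG (FundamentalGroup X x) := by
  obtain ⟨Y, Γ, tY, hsc, gΓ, aΓ, π, e, hG⟩ := exists_uc (n := n) X x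
  obtain ⟨C, P, K, hfg, -⟩ := H639.V.v15Stmt n X w hw Y Γ π hG
  exact Group.fg_of_surjective (f := e.symm.toMonoidHom) e.symm.surjective

/-- **Theorem K with the rank**: residually finite quotients of the fundamental group. -/
theorem resFin (hK : KFinal) (w : Chart n X → Cm n → Matrix (Fin n) (Fin n) ℂ) (hw : IsKahler w)
    (Φ : Cm n → X) (hΦ : FiniteOrder w Φ) (x : X) (hx : CurveConnected n X x)
    (R : Type) [Group R] [Group.ResiduallyFinite R] (q : FundamentalGroup X x →* R)
    (hq : Surjective q) : VAr R (2 * n) := by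
  obtain ⟨U, Q, hU, hx, hc, hQ, hch⟩ := hx
  exact mainPiA' n X w hw Φ hΦ x R q hq (hK n X w hw U x Q hU hx hc hQ hch R q hq).folner

theorem cc_of_surj (w : Chart n X → Cm n → Matrix (Fin n) (Fin n) ℂ) (Φ : Cm n → X)
    (hΦ : FiniteOrder w Φ) (hs : Surjective Φ) (x : X) : CurveConnected n X x := by
  refine ⟨univ, {Φ 0}, isOpen_univ, mem_univ _,
    fun c => ⟨c, Path.Homotopic.refl c, fun t => mem_univ _⟩, countable_singleton _,
    fun y _ => ⟨Φ 0, rfl, ?_⟩⟩
  obtain ⟨ζ, rfl⟩ := hs y
  exact Relation.ReflTransGen.single (onCurve_of_range hΦ.holo ζ)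

/-- `A` has a subgroup `G` of finite index which is an extension of `ℤᵐ`, `m ≤ 2 n`, by a finitely
generated Kazhdan group all of whose amenable quotients are finite. -/
def StrK (n : ℕ) (A : Type) [Group A] : Prop :=
  ∃ (G : Subgroup A) (m : ℕ) (c : G →* Multiplicative (Fin m → ℤ)), G.FiniteIndex ∧ m ≤ 2 * n ∧
    Function.Surjective c ∧ Group.FG c.ker ∧
    (∀ (Q : Type) [Group Q] (q : c.ker →* Q), Function.Surjective q → Folner Q → Finite Q) ∧
    Kazhdan c.ker

theorem strK (hT : MainPiT) (hK : KFinal) (hM : MalStmt)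
    (w : Chart n X → Cm n → Matrix (Fin n) (Fin n) ℂ) (hw : IsKahler w)
    (Φ : Cm n → X) (hΦ : FiniteOrder w Φ) (x : X) (hx : CurveConnected n X x) :
    StrK n (FundamentalGroup X x) := by
  obtain ⟨G, m, c, h1, h2, h3, h4, h5, h6⟩ := hT n X w hw Φ hΦ x
  refine ⟨G, m, c, h1, h2, h3, h4, h5, h6.resolve_right ?_⟩
  exact not_nsrep hM (pi_fg w hw x)
    (resFin hK w hw Φ hΦ x hx _ (QuotientGroup.mk' (FR (FundamentalGroup X x)))
      (QuotientGroup.mk'_surjective _)).va G h1

end

end Vale.Agent.P284.H409.K
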