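import Vale.Agent.P284.H35.ToE
import Vale.Agent.P284.H409.Rk
import Vale.Agent.P272.K.Iface
import Mathlib.GroupTheory.ResiduallyFinite

/-!
# P284, theorem K (helper35, helper409): compact Kähler manifolds, residually finite quotients of the
fundamental group. Statements of the rows. FROZEN.

Design: board #19376.
-/

open scoped Manifold ContDiff Topology Pointwise ComplexConjugate ComplexOrder
open Filter Set Metric MeasureTheory

noncomputable section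

namespace Vale.Agent.P284.H409.K

open Vale.Agent.P272.K Vale.Agent.P284.H248 Vale.Agent.P284.H894 Vale.Agent.P284.H894.G
  Vale.Agent.P284.H894.V Vale.Agent.P284.H894.W Vale.Agent.P284.H913.V Vale.Agent.P284.H409.A

section
variable {n : ℕ} {Γ : Type} [Group Γ]

/-- the pieces of the covering `E / N` of `X`, with group `Γ / N` -/
def qC (C : Coc n Γ) (N : Subgroup Γ) [N.Normal] : Coc n (Γ ⧸ N) where
  I := C.I
  fin := C.fin
  ne := C.ne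
  c := C.c
  r := C.r
  r_pos := C.r_pos
  O := C.O
  T := C.T
  g := C.g
  κ := fun a b z => QuotientGroup.mk' N (C.κ a b z)
  O_open := C.O_open
  O_sub := C.O_sub
  O_self := C.O_self
  T_self := C.T_self
  g_self := C.g_self
  κ_self := fun a z hz => by rw [C.κ_self a z hz, map_one]
  T_mem := C.T_mem
  trans_mem := C.trans_mem
  trans_T := C.trans_T
  trans_g := C.trans_g
  trans_κ := fun a b d z hz h => by rw [C.trans_κ a b d z hz h, map_mul]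
  T_holo := C.T_holo
  g_holo := C.g_holo
  g_ne := C.g_ne
  κ_loc := fun a b z hz => by
    filter_upwards [C.κ_loc a b z hz] with z' hz'
    rw [hz']
  cover := C.cover
  closed := C.closed
  N := by
    classical
    exact C.N.image (QuotientGroup.mk' N)
  κ_mem := fun a b z hz h1 h2 => by
    classical
    exact Finset.mem_image_of_mem _ (C.κ_mem a b z hz h1 h2)
  M := C.M
  M_one := C.M_one
  g_le := C.g_le
  T_le := C.T_le
  conn := fun P hP γ a γ' b h => by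
    obtain ⟨γ, rfl⟩ := QuotientGroup.mk'_surjective N γ
    obtain ⟨γ', rfl⟩ := QuotientGroup.mk'_surjective N γ'
    refine C.conn (fun γ a => P (QuotientGroup.mk' N γ) a) ?_ γ a γ' b h
    intro γ a b z hz h1 h2 h3
    have := hP _ a b z hz h1 h2 h3
    rwa [map_mul]

/-- the metric on the pieces of `E / N` -/
def qK {C : Coc n Γ} (K : KM C) (N : Subgroup Γ) [N.Normal] : KM (qC C N) where
  w := K.w
  ku := K.ku
  change := K.change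
  lam := K.lam
  lam_pos := K.lam_pos
  Lam := K.Lam
  low := K.low
  up := K.up
  vol_up := K.vol_up
  vol_low := K.vol_low

/-- the partition of unity on the pieces of `E / N` -/
def qP {C : Coc n Γ} (P : PU C) (N : Subgroup Γ) [N.Normal] : PU (qC C N) where
  χ := P.χ
  smooth := P.smooth
  nonneg := P.nonneg
  sum_one := P.sum_one
  K := P.K
  compactK := P.compactK
  K_sub := P.K_sub
  supp := P.supp
  compat := P.compat

/-- a smooth function on the covering -/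
structure SmF (C : Coc n Γ) (φ : Γ → C.I → Cm n → ℝ) : Prop where
  smooth : ∀ γ a, ∀ z ∈ C.Ω a, ContDiffAt ℝ ∞ (φ γ a) z
  compat : ∀ γ a b, ∀ z ∈ C.O a b, φ γ a z = φ (γ * C.κ a b z) b (C.T a b z)

/-- `φ` is a smooth solution of `det (w + ∂∂̄φ) = exp (φ + F) det w`, `w + ∂∂̄φ > 0`. -/
structure MAF (C : Coc n Γ) (K : KM C) (F φ : Γ → C.I → Cm n → ℝ) : Prop extends SmF C φ where
  pos : ∀ γ a, ∀ z ∈ C.Ω a, (K.w a z + cHess (φ γ a) z).PosDef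
  eq : ∀ γ a, ∀ z ∈ C.Ω a, Real.log (K.w a z + cHess (φ γ a) z).det.re -
    Real.log (K.w a z).det.re = φ γ a z + F γ a z

/-- the Monge-Ampère equation is solvable on all finite quotients -/
def MAEx (C : Coc n Γ) (K : KM C) : Prop :=
  ∀ (N : Subgroup Γ) [N.Normal], N.FiniteIndex → ∀ F, SmF (qC C N) F →
    ∃ φ, MAF (qC C N) (qK K N) F φ

/-- `w` is smooth, `0 ≤ w ≤ 1`, `∂∂̄w ≥ -ε` (metric). -/
structure QPsh (C : Coc n Γ) (K : KM C) (ε : ℝ) (w : Γ → C.I → Cm n → ℝ) : Prop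
    extends SmF C w where
  nonneg : ∀ γ a, ∀ z ∈ C.Ω a, 0 ≤ w γ a z
  le_one : ∀ γ a, ∀ z ∈ C.Ω a, w γ a z ≤ 1
  hess : ∀ γ a, ∀ z ∈ C.Ω a, (cHess (w γ a) z + (ε : ℂ) • K.w a z).PosSemidef

end

/-- **K1** (35 / 977): `E / N` is a compact Kähler manifold; Aubin-Yau. -/
def K1Stmt : Prop :=
  ∀ (n : ℕ) (X : Type) [TopologicalSpace X] [T2Space X] [CompactSpace X] [ConnectedSpace X]
    [ChartedSpace (Cm n) X] [IsManifold 𝓘(ℂ, Cm n) ω X]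
    (w : Chart n X → Cm n → Matrix (Fin n) (Fin n) ℂ), IsKahler w →
    ∀ (E Γ : Type) [TopologicalSpace E] [ConnectedSpace E] [Group Γ] [MulAction Γ E] (p : E → X),
    IsGalois Γ p → ∃ (C : Coc n Γ) (_ : PU C) (K : KM C) (_ : H35.A9.Shs p C), MAEx C K

/-- **K2**: maximum principle (`Γ` finite). -/
def K2Stmt : Prop :=
  ∀ (n : ℕ) (Γ : Type) [Group Γ] [Finite Γ] (C : Coc n Γ) (K : KM C) (F φ : Γ → C.I → Cm n → ℝ),
    MAF C K F φ → ∀ A : ℝ, (∀ γ a, ∀ z ∈ C.Ω a, 0 ≤ F γ a z ∧ F γ a z ≤ A) →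
    ∀ γ a, ∀ z ∈ C.Ω a, -A ≤ φ γ a z ∧ φ γ a z ≤ 0

/-- **K3**: the total mass (`Γ` finite; port of `INT.intX_det_add_cHess` with `V3Stmt`). -/
def K3Stmt : Prop :=
  ∀ (n : ℕ) (Γ : Type) [Group Γ] [Finite Γ] (C : Coc n Γ) (P : PU C) (K : KM C)
    (φ : Γ → C.I → Cm n → ℝ), SmF C φ →
    Int P K (fun γ a z => (K.w a z + cHess (φ γ a) z).det.re / vol (K.w a) z) =
      Int P K (fun _ _ _ => 1)

/-- **K4**: Chern-Levine-Nirenberg inequality for smooth functions, local. -/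
def K4Stmt : Prop :=
  ∀ (n : ℕ) (c : Cm n) (r R : ℝ), 0 < r → r < R → ∀ w : Cm n → Matrix (Fin n) (Fin n) ℂ,
    KU (ball c R) w → ∃ B : ℝ, 1 ≤ B ∧ ∀ A : ℝ, 1 ≤ A → ∀ φ : Cm n → ℝ,
    (∀ z ∈ ball c R, ContDiffAt ℝ ∞ φ z) → (∀ z ∈ ball c R, -A ≤ φ z ∧ φ z ≤ 0) →
    (∀ z ∈ ball c R, (w z + cHess φ z).PosDef) →
    ∫ z in ball c r, (w z + cHess φ z).det.re ≤ B * A ^ n

/-- **K5**: Jensen and the mean value inequality, local. -/
def K5Stmt : Prop :=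
  ∀ (n : ℕ) (c : Cm n) (r s R : ℝ), 0 < r → r < s → s < R →
    ∀ w : Cm n → Matrix (Fin n) (Fin n) ℂ,
    KU (ball c R) w → ∃ B : ℝ, ∀ φ : Cm n → ℝ,
    (∀ z ∈ ball c R, ContDiffAt ℝ ∞ φ z) → (∀ z ∈ ball c R, φ z ≤ 0) →
    (∀ z ∈ ball c R, (w z + cHess φ z).PosDef) →
    ∀ M : ℝ, 0 < M → ∫ z in ball c s, Real.exp (φ z) * vol w z ≤ M →
    ∀ z ∈ ball c r, φ z ≤ Real.log M + B

/-- Conclusion of **KA**: estimates with a constant independent of `N` and `A`. -/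
def KAConcl : Prop :=
  ∀ (n : ℕ) (Γ : Type) [Group Γ] (C : Coc n Γ) (_ : PU C) (K : KM C) (a₀ : C.I) (z₀ : Cm n) (ρ : ℝ),
    0 < ρ → ball z₀ (4 * ρ) ⊆ C.V a₀ → ∃ B : ℝ, 1 ≤ B ∧
    ∀ (N : Subgroup Γ) [N.Normal], N.FiniteIndex → ∃ F, SmF (qC C N) F ∧
    ∀ A : ℝ, 1 ≤ A → ∀ φ, MAF (qC C N) (qK K N) (fun γ a z => A * F γ a z) φ →
      (∀ γ a, ∀ z ∈ C.Ω a, φ γ a z ≤ 0) ∧
      (Set.ncard {γ : Γ ⧸ N | ∀ z ∈ ball z₀ ρ, φ γ a₀ z ≤ -1} : ℝ) ≤ B * A ^ n ∧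
      ∀ z ∈ ball z₀ ρ, φ 1 a₀ z ≤ -A + B * (1 + Real.log A)

/-- **KA**: bump function in the piece `(1, a₀)` (V4 for `qC C N`), `0 ≤ F ≤ 1`, `F = 1` on
`ball z₀ (2 ρ)`, supported in `closedBall z₀ (3 ρ)`;
`Int (1 - e^φ) = Int (e^φ (e^(A F) - 1)) ≤ ∫ det (w + ∂∂̄φ) ≤ B Aⁿ` (V3.piece, K3, K4); K5 for `φ` on
`ball z₀ (2 ρ)` (`r = ρ`, `s = 2 ρ`, `R = 4 ρ`): `∫ e^(φ + A) vol ≤ B Aⁿ`. -/
def KAStmt : Prop := K2Stmt → K3Stmt → K4Stmt → K5Stmt → V3Stmt → V4Stmt → KAConcl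

/-- quasi-psh functions with a definite drop between the cells `1` and `t ∈ S` -/
def Drop {n : ℕ} {Γ : Type} [Group Γ] (C : Coc n Γ) (K : KM C) (a₀ : C.I) (z₀ : Cm n) (ρ : ℝ)
    (S : Set Γ) : Prop :=
  ∃ t ∈ S, ∃ α β : ℝ, 0 ≤ α ∧ α < β ∧ ∃ (w : ℕ → Γ → C.I → Cm n → ℝ) (ε : ℕ → ℝ),
    Tendsto ε atTop (𝓝 0) ∧ (∀ j, QPsh C K (ε j) (w j)) ∧
    (∀ j, ∀ z ∈ ball z₀ ρ, w j 1 a₀ z ≤ α) ∧ ∀ j, ∃ z ∈ ball z₀ ρ, β ≤ w j t a₀ z

/-- Conclusion of **K6** -/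
def K6Concl : Prop :=
  ∀ (n : ℕ) (Γ : Type) [Group Γ] [Group.ResiduallyFinite Γ] (C : Coc n Γ) (_ : PU C) (K : KM C),
    MAEx C K → ∀ S : Set Γ, S.Finite → ¬ Subexp S → ∀ (a₀ : C.I) (z₀ : Cm n) (ρ : ℝ),
    0 < ρ → ball z₀ (4 * ρ) ⊆ C.V a₀ → Drop C K a₀ z₀ ρ S

/-- **K6**: pigeonhole as in `G3Stmt`. `|S^k| ≥ e^(c k)` (for `k` in an infinite set); `N` injective on
`S^k`; `A ≈ e^(c k / (2 n + 2))`; `v = -φ ≥ A / 2` on the cell `1`, `v < 1` somewhere on the cell `g`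
for some `g ∈ S^k`; `θ = e^(-c / (8 n + 8))`: a first `i` with `v ≥ τ_i := (A/2) θ^i` on the cell
`y_i = s_1 ⋯ s_i` and not `v ≥ τ_i θ` on the cell `y_i s_{i+1}`; `τ_i ≥ A^(1/2)` or so, tends to infinity;
`w γ a z = exp (φ (y_i γ) a z / τ_i)`, `ε = 1 / τ_i`, `α = e^(-1)`, `β = e^(-θ)`. -/
def K6Stmt : Prop := KAConcl → K6Concl

/-- Conclusion of **K7**: the relaxed limit (port of G4 with an error). -/
def K7Stmt : Prop :=
  ∀ (n : ℕ) (Γ : Type) [Group Γ] (C : Coc n Γ) (K : KM C) (w : ℕ → Γ → C.I → Cm n → ℝ) (ε : ℕ → ℝ),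
    Tendsto ε atTop (𝓝 0) → (∀ j, QPsh C K (ε j) (w j)) →
    ∃ v : PshFam C,
      (∀ γ b (U : Set (Cm n)) (α : ℝ), IsOpen U → U ⊆ C.V b →
        (∀ j, ∀ z ∈ U, w j γ b z ≤ α) → ∀ z ∈ U, v.v γ b z ≤ α) ∧
      ∀ γ b (Q : Set (Cm n)) (β : ℝ), IsCompact Q → Q ⊆ C.V b →
        (∀ j, ∃ z ∈ Q, β ≤ w j γ b z) → ∃ z ∈ Q, β ≤ v.v γ b z

/-- **K8** (35 / 639): from `PshFam` to the covering space. -/
def K8Stmt : Prop :=
  ∀ (n : ℕ) (X : Type) [TopologicalSpace X] [T2Space X] [CompactSpace X] [ConnectedSpace X]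
    [ChartedSpace (Cm n) X] [IsManifold 𝓘(ℂ, Cm n) ω X]
    (E Γ : Type) [TopologicalSpace E] [ConnectedSpace E] [Group Γ] [MulAction Γ E] (p : E → X),
    IsGalois Γ p → ∀ (C : Coc n Γ) (S : H35.A9.Shs p C) (v : PshFam C),
    ∃ u : E → ℝ, IsPsh (n := n) p u ∧ (∀ y, 0 ≤ u y ∧ u y ≤ 1) ∧
      ∀ γ a, ∀ z ∈ C.V a, u (γ • S.σ a z) = v.v γ a z

/-- Conclusion of **KG6**: as `G6Concl`, for Kähler manifolds and residually finite groups. -/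
def KG6Concl : Prop :=
  ∀ (n : ℕ) (X : Type) [TopologicalSpace X] [T2Space X] [CompactSpace X] [ConnectedSpace X]
    [ChartedSpace (Cm n) X] [IsManifold 𝓘(ℂ, Cm n) ω X]
    (w : Chart n X → Cm n → Matrix (Fin n) (Fin n) ℂ), IsKahler w →
    ∀ (E Γ : Type) [TopologicalSpace E] [ConnectedSpace E] [Group Γ] [Group.ResiduallyFinite Γ]
      [MulAction Γ E] (p : E → X),
    IsGalois Γ p → ∀ (S : Set Γ), S.Finite → ¬ Subexp S → ∀ (y : E), ∀ W ∈ 𝓝 y,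
    ∃ t ∈ S, ∃ u : E → ℝ, IsPsh (n := n) p u ∧ (∀ y, 0 ≤ u y ∧ u y ≤ 1) ∧
      ∃ y' ∈ W, u y < u (t • y')

/-- **KG6**: assembly (`y = γ₀ • σ a₀ z₀`, the set `γ₀⁻¹ S γ₀`). -/
def KG6Stmt : Prop := K1Stmt → K6Concl → K7Stmt → K8Stmt → KG6Concl

/-- **KG9**: theorem K for the fundamental group (as G9, on the covering of `X` with group `R`). -/
def KFinal : Prop :=
  ∀ (n : ℕ) (X : Type) [TopologicalSpace X] [T2Space X] [CompactSpace X] [ConnectedSpace X]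
    [ChartedSpace (Cm n) X] [IsManifold 𝓘(ℂ, Cm n) ω X]
    (w : Chart n X → Cm n → Matrix (Fin n) (Fin n) ℂ), IsKahler w →
    ∀ (U : Set X) (x : X) (Q : Set X), IsOpen U → x ∈ U →
    (∀ c : Path x x, ∃ c' : Path x x, c.Homotopic c' ∧ ∀ t, c' t ∈ U) →
    Q.Countable → (∀ y ∈ U, ∃ q ∈ Q, Chain n X y q) →
    ∀ (R : Type) [Group R] [Group.ResiduallyFinite R] (q : FundamentalGroup X x →* R),
    Function.Surjective q → SubexpGrowth R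

/-- **KG9** -/
def KG9Stmt : Prop := KG6Concl → KFinal

end Vale.Agent.P284.H409.K
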